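import Vale.Agent.P253J.U
import Vale.Agent.P253H.Main

/-! The core: copy of pc_lift and lift_lim. -/

namespace Vale.Agent.P253

open Complex Matrix Metric Set Filter Topology MeasureTheory
open scoped ContDiff ComplexConjugate ComplexOrder ENNReal Manifold

variable {n m N : ℕ} {X : Type} [TopologicalSpace X] [ChartedSpace (E n) X]
  [IsManifold 𝓘(ℂ, E n) ω X] [T2Space X] {G : X → E n → M n} {h : X → E N} {Φ : E m → E N}
  {W Ω : Set (E m)} {ψ : E m → X}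

theorem T_lim (hS : Std G h) (hW : IsOpen W) (hΦ : DifferentiableOn ℂ Φ W) (hψ : HolOn n ψ Ω)
    (he : ∀ z ∈ Ω, h (ψ z) = Φ z) {x : ℕ → E m} (hx : ∀ k, x k ∈ Ω) {z : E m} (hz : z ∈ W)
    (h1 : Tendsto x atTop (𝓝 z)) {p : X} (h2 : Tendsto (fun k => ψ (x k)) atTop (𝓝 p)) :
    ∃ r χ, 0 < r ∧ Lf n h Φ W χ (ball z r) ∧ ∀ᶠ k in atTop, χ (x k) = ψ (x k) := by
  obtain ⟨R, V, hR, hp, hr⟩ := retr hS p
  have c : ContinuousAt Φ z := hΦ.continuousOn.continuousAt (hW.mem_nhds hz)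
  have e : Φ z = h p := tendsto_nhds_unique (c.tendsto.comp h1)
    (((hS.hol.continuous.tendsto p).comp h2).congr fun k => he _ (hx k))
  obtain ⟨r, r0, hB⟩ := Metric.mem_nhds_iff.1
    (inter_mem (hW.mem_nhds hz) (c.preimage_mem_nhds (hR.op.mem_nhds (e ▸ hp))))
  have hH : HolOn n (R ∘ Φ) (ball z r) := ⟨isOpen_ball, fun w hw => ((hR.at (hB hw).2).comp w
    (mdifferentiableAt_iff_differentiableAt.2
      (hΦ.differentiableAt (hW.mem_nhds (hB hw).1)))).mdifferentiableWithinAt⟩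
  obtain ⟨k, k1, k2⟩ :=
    ((h1.eventually (ball_mem_nhds z r0)).and (h2.eventually hr.eventually_nhds)).exists
  have a1 : AnalyticOnNhd ℂ (h ∘ R ∘ Φ) (ball z r) :=
    P278F.analyticOnNhd_of_differentiableOn isOpen_ball fun w hw =>
      (hH.comp_diff hS.hol hw).differentiableWithinAt
  have a2 : AnalyticOnNhd ℂ Φ (ball z r) :=
    P278F.analyticOnNhd_of_differentiableOn isOpen_ball (hΦ.mono fun w hw => (hB hw).1)
  refine ⟨r, R ∘ Φ, r0, ⟨hH, fun w hw => (hB hw).1,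
    a1.eqOn_of_preconnected_of_eventuallyEq a2 (convex_ball z r).isPreconnected k1 ?_⟩, ?_⟩
  · filter_upwards [hψ.op.mem_nhds (hx k), (hψ.at (hx k)).continuousAt.eventually k2] with w w1 w2
    simp only [Function.comp_apply]
    rw [← he w w1, w2]
  · filter_upwards [h2.eventually hr] with k hk
    rw [Function.comp_apply, ← he _ (hx k), hk]

theorem touch_ray (hS : Std G h) (hc : MComplete G) (hW : IsOpen W) (cW : Convex ℝ W)
    (hΦ : DifferentiableOn ℂ Φ W) (h1 : Lf n h Φ W ψ Ω) {f b : ℂ → E m} (hT : Touch Ω f b) :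
    ∃ r χ, 0 < r ∧ Lf n h Φ W χ (ball (f 0 + b 0) r) ∧
      ∃ᶠ ζ in 𝓝[≠] (0 : ℂ), χ (f ζ + b ζ) = ψ (f ζ + b ζ) := by
  have hψ := h1.hol
  have he := h1.eq
  have sub := h1.sub
  obtain ⟨F, hFd⟩ : ∃ F : ℂ → E m, F = fun z => f z + b z := ⟨_, rfl⟩
  have hF : Differentiable ℂ F := hFd ▸ hT.df.add hT.db
  have hin : ∀ z ∈ pd 1, F z ∈ Ω := fun z hz => by
    simpa [hFd] using hT.ins 1 ⟨zero_le_one, le_rfl⟩ z (by linarith [(mem_pd.1 hz).1])
      (Or.inr (mem_pd.1 hz).2)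
  have h0 : F 0 ∈ W := hFd ▸ touch_conv hT hW cW sub
  have hb : ∀ z ∈ ball (0 : ℂ) 1, F z ∈ W := fun z hz => by
    rcases eq_or_ne z 0 with rfl | k
    · exact h0
    · exact sub (hin z (mem_pd.2 ⟨mem_ball_zero_iff.1 hz, k⟩))
  obtain ⟨s1, s2⟩ := kk_neg hS hψ hF (pd_open 1) hin
  obtain ⟨c, c0, hl⟩ := lowH hS hψ hT
  obtain ⟨g1, g2⟩ := gg_kahler hS.kae hψ
  have hi := area hψ.op g1 hT
  have e : ∀ z, NN (fun z => GG G ψ z + 1) f b 1 z =
      nsq (GG G ψ (F z) + 1) fun i => deriv F z i :=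
    fun z => by simp [NN, hFd, deriv_fun_add (hT.df z) (hT.db z)]
  simp only [e] at hi
  have hv : Differentiable ℂ fun z i => deriv F z i :=
    differentiable_pi.2 fun i => (EuclideanSpace.proj (𝕜 := ℂ) i).differentiable.comp hF.deriv
  have k1 : Sm (pd 1) fun z => GG G ψ (F z) + 1 := ⟨fun i j => (g1.smooth i j).comp
    (hF.contDiff.restrict_scalars ℝ).contDiffOn hin, fun z hz => g1.pos _ (hin z hz)⟩
  have k2 : Sm (pd 1) fun _ => (1 : M m) := ⟨fun _ _ => contDiffOn_const, fun _ _ => PosDef.one⟩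
  have lc : ContinuousOn (fun z => nsq (GG G ψ (F z)) fun i => deriv F z i) (pd 1) :=
    ((core_cont k1 hv.continuous.continuousOn).sub
      (core_cont k2 hv.continuous.continuousOn)).congr fun z _ => by
        simp only [Pi.sub_apply, main_add, add_sub_cancel_right]
  have l0 : ∀ z, 0 ≤ nsq (GG G ψ (F z)) fun i => deriv F z i := fun z => by
    rw [nsq_eq]
    exact ((g2 _).dotProduct_mulVec_nonneg _).1
  have hd : DifferentiableOn ℂ (Φ ∘ F) (ball 0 1) := hΦ.comp hF.differentiableOn hb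
  have ev : ∀ z ∈ pd 1, (fun j => deriv (Φ ∘ F) z j) =
      fun j => fderiv ℂ (h ∘ ψ) (F z) (deriv F z) j := fun z hz => by
    have e1 : h ∘ ψ =ᶠ[𝓝 (F z)] Φ := mem_of_superset (hψ.op.mem_nhds (hin z hz)) he
    rw [e1.fderiv_eq, ((hΦ.differentiableAt (hW.mem_nhds (sub (hin z hz)))).hasFDerivAt
      |>.comp_hasDerivAt z (hF z).hasDerivAt).deriv]
  obtain ⟨δ, ρ, d0, r0, r1, a, -, j1, j2⟩ := coreP s1 s2 c0 (by simpa only [hFd] using hl)
    (v := fun z j => deriv (Φ ∘ F) z j) (differentiableOn_pi.2 fun i =>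
      (EuclideanSpace.proj (𝕜 := ℂ) i).differentiable.comp_differentiableOn (hd.deriv isOpen_ball))
    lc (fun z hz => ev z hz ▸ (dom_iff hS hψ (hin z hz) _ _).2 le_rfl)
    (lt_of_le_of_lt (lintegral_mono fun z => ENNReal.ofReal_le_ofReal (by
      rw [main_add]
      exact le_add_of_nonneg_right (nsq_nonneg PosDef.one _))) hi)
  have sb : pd ρ ⊆ pd 1 := fun z k => mem_pd.2 ⟨(mem_pd.1 k).1.trans_le r1, (mem_pd.1 k).2⟩
  obtain ⟨u, u1, u2⟩ := ray r0 d0 (lc.mono sb) (fun z _ => l0 z) (lt_of_le_of_lt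
    (lintegral_mono_ae (by
      filter_upwards [j1, ae_restrict_mem (pd_open ρ).measurableSet] with z k1 k2
      rw [ev z (sb k2)] at k1
      exact ENNReal.ofReal_le_ofReal (mul_le_mul_of_nonneg_right
        ((dom_iff hS hψ (hin z (sb k2)) _ _).1 k1) (by positivity)))) j2)
  have hs : ∀ s ∈ Ioo (0 : ℝ) ρ, F (s * u) ∈ Ω := fun s hs =>
    hin _ (sb (mem_pd.2 ⟨by
      rw [norm_mul, u1, mul_one, Complex.norm_real, Real.norm_of_nonneg hs.1.le]
      exact hs.2, mul_ne_zero (Complex.ofReal_ne_zero.2 hs.1.ne') (norm_pos_iff.1 (u1 ▸ one_pos))⟩))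
  obtain ⟨p, hp⟩ := finH hc hψ hF r0 u1 hs u2
  have t1 : Tendsto (fun k : ℕ => ρ / (k + 2 : ℝ)) atTop (𝓝 0) :=
    tendsto_const_nhds.div_atTop (tendsto_natCast_atTop_atTop.atTop_add tendsto_const_nhds)
  have t2 : Tendsto (fun k : ℕ => F ((ρ / (k + 2) : ℝ) * u)) atTop (𝓝 (F 0)) := by
    refine (hF.continuous.tendsto 0).comp ?_
    simpa using ((continuous_ofReal.tendsto 0).comp t1).mul_const u
  obtain ⟨r, χ, k1, k2, k3⟩ := T_lim hS hW hΦ hψ he (fun k => hs _ ⟨by positivity,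
    div_lt_self r0 (by linarith [(Nat.cast_nonneg k : (0 : ℝ) ≤ k)])⟩) h0 t2 hp
  refine ⟨r, χ, k1, by simpa only [hFd] using k2, ?_⟩
  have t3 : Tendsto (fun k : ℕ => (((ρ / (k + 2) : ℝ) : ℂ) * u)) atTop (𝓝[≠] 0) := by
    refine tendsto_nhdsWithin_iff.2 ⟨?_, Eventually.of_forall fun k => ?_⟩
    · simpa using ((continuous_ofReal.tendsto 0).comp t1).mul_const u
    · exact mul_ne_zero (Complex.ofReal_ne_zero.2 (by positivity)) (norm_pos_iff.1 (u1 ▸ one_pos))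
  exact t3.frequently (by simpa only [hFd] using k3.frequently)

end Vale.Agent.P253
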